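import Vale.Agent.P202.H834.Defs
import Mathlib.RingTheory.RegularLocalRing.Defs

/-!
# Closed fibres and hypersurface sections
-/

namespace Vale.Agent.P202.H664

open IsLocalRing Vale.Agent.P202.H834

/-- The closed fibre `F = S/𝔪S` of the homomorphism `φ : R → S` of local rings (`𝔪` is the maximal
ideal of `R`) has dimension `f` and multiplicity `c`. -/
def HasFibreMult {R S : Type*} [CommRing R] [IsLocalRing R] [CommRing S] [IsLocalRing S]
    (φ : R →+* S) (f c : ℕ) : Prop :=
  HasMult S (S ⧸ (maximalIdeal R).map φ) f c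

/-- The closed fibre `F = S/𝔪S` of the homomorphism `φ : R → S` of local rings is a regular local
ring. -/
def HasRegularFibre {R S : Type*} [CommRing R] [IsLocalRing R] [CommRing S]
    (φ : R →+* S) : Prop :=
  IsRegularLocalRing (S ⧸ (maximalIdeal R).map φ)

/-- Whenever `x_1, …, x_r` in the maximal ideal of `S` lower the dimension `n` of the `S`-module `T`
by `r`, the multiplicity of `T/(x_1, …, x_r)T` is at least `b`. -/
def SectionBound (S : Type*) [CommRing S] [IsLocalRing S] (T : Type*) [AddCommGroup T]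
    [Module S T] (n b : ℕ) : Prop :=
  ∀ (r s : ℕ) (x : Fin r → S), (∀ i, x i ∈ maximalIdeal S) →
    Module.supportDim S (T ⧸ (Ideal.span (Set.range x) • (⊤ : Submodule S T))) = s →
    s + r = n →
    ∃ e : ℕ, HasMult S (T ⧸ (Ideal.span (Set.range x) • (⊤ : Submodule S T))) s e ∧ b ≤ e

/-- The two-sided bound for the homomorphism `φ : R → S` of local rings with closed fibre `F`:
`dim S = dim R + dim F`, `e(R) ≤ e(S) ≤ e(R) e(F)`, `e(S) = e(R)` if `F` is regular, and
`e(S) ≤ e(S/(x_1, …, x_r))` if `x_1, …, x_r` in the maximal ideal lower the dimension by `r`. -/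
def TwoSidedBound {R S : Type*} [CommRing R] [IsLocalRing R] [CommRing S] [IsLocalRing S]
    (φ : R →+* S) : Prop :=
  ∃ d f a b c : ℕ, HasRingMult R d a ∧ HasFibreMult φ f c ∧ HasRingMult S (d + f) b ∧
    a ≤ b ∧ b ≤ a * c ∧ (HasRegularFibre φ → b = a) ∧ SectionBound S S (d + f) b

end Vale.Agent.P202.H664
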