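import Vale.Agent.P202.H664.Sect
import Vale.Agent.P202.H664.Defs
import Vale.Agent.P202.H834.LocMod
import Mathlib.AlgebraicGeometry.Morphisms.Flat

/-!
# Two-sided bounds for multiplicities in flat families
-/

namespace Vale.Agent.P202.H664

open Filter Topology IsLocalRing TensorProduct Vale.Agent.P202 Vale.Agent.P202.H834

universe u v w

/-- the multiplicity of a module exists. -/
theorem exists_gs (B : Type u) [CommRing B] [IsLocalRing B] [IsNoetherianRing B]
    (T : Type w) [AddCommGroup T] [Module B T] [Module.Finite B T] {m : ℕ}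
    (hm : Module.supportDim B T = m) : ∃ a : ℕ, Tendsto (gs B T m) atTop (𝓝 (a : ℝ)) := by
  have h0 : ringKrullDim (B ⧸ (maximalIdeal B).map (algebraMap B B)) = (0 : ℕ) := by
    have h1 : (maximalIdeal B).map (algebraMap B B) = maximalIdeal B := Ideal.map_id _
    rw [h1]
    let : Field (B ⧸ maximalIdeal B) := Ideal.Quotient.field _
    exact ringKrullDim_eq_zero_of_field _
  obtain ⟨a, b, ha, -, -⟩ := lim_all (R := B) (S := B) h0 T hm.le
  exact ⟨a, ha⟩

/-- the dimension of a nonzero finite module is a natural number. -/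
theorem exists_dim_mod (B : Type u) [CommRing B] [IsLocalRing B] [IsNoetherianRing B]
    (T : Type w) [AddCommGroup T] [Module B T] [Module.Finite B T] [Nontrivial T] :
    ∃ m : ℕ, Module.supportDim B T = m := by
  have h1 : Module.annihilator B T ≤ maximalIdeal B := by
    refine IsLocalRing.le_maximalIdeal fun h => ?_
    have h2 : (1 : B) ∈ Module.annihilator B T := by
      rw [h]
      exact Submodule.mem_top
    obtain ⟨x, hx⟩ := exists_ne (0 : T)
    exact hx (by simpa using Module.mem_annihilator.1 h2 x)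
  have l1 := tc_loc_quot _ h1
  rw [Module.supportDim_eq_ringKrullDim_quotient_annihilator]
  exact exists_dim _

/-- hypersurface sections. -/
theorem sectionBound_of {B : Type u} [CommRing B] [IsLocalRing B] [IsNoetherianRing B]
    {T : Type w} [AddCommGroup T] [Module B T] [Module.Finite B T] {n b : ℕ}
    (hb : Tendsto (gs B T n) atTop (𝓝 (b : ℝ))) : SectionBound B T n b := by
  intro r s x hx hdim hs
  obtain ⟨e, he⟩ := exists_gs B _ hdim
  refine ⟨e, ⟨hdim, he⟩, ?_⟩
  have h1 : (b : ℝ) ≤ e := by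
    refine lim_le x hx ?_ he
    rw [hs]
    exact hb
  exact_mod_cast h1

section main

variable {R : Type u} {S : Type v} [CommRing R] [IsLocalRing R] [IsNoetherianRing R]
  [CommRing S] [IsLocalRing S] [IsNoetherianRing S] [Algebra R S]
  [IsLocalHom (algebraMap R S)]

/-- The two-sided bound for flat local homomorphisms. -/
theorem flat_main [Module.Flat R S] (M : Type w) [AddCommGroup M] [Module R M] [Module.Finite R M]
    [Nontrivial M] : ∃ m f a b c : ℕ, HasMult R M m a ∧ HasFibreMult (algebraMap R S) f c ∧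
      HasMult S (S ⊗[R] M) (m + f) b ∧ a ≤ b ∧ b ≤ a * c ∧
      (HasRegularFibre (algebraMap R S) → b = a) ∧ SectionBound S (S ⊗[R] M) (m + f) b := by
  obtain ⟨m, f, a, b, hf, ha, hb, hab⟩ := lech_module (R := R) (S := S) M
  have hfs : Module.supportDim S (S ⧸ (maximalIdeal R).map (algebraMap R S)) = f := by
    rw [Module.supportDim_quotient_eq_ringKrullDim, hf]
  obtain ⟨c, hc⟩ := exists_gs S (S ⧸ (maximalIdeal R).map (algebraMap R S)) hfs
  have hup : (b : ℝ) ≤ a * c := upper_bound M ha.2 hb.2 hc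
  have hup' : b ≤ a * c := by exact_mod_cast hup
  refine ⟨m, f, a, b, c, ha, ⟨hfs, hc⟩, hb, hab, hup', ?_, sectionBound_of hb.2⟩
  intro hreg
  have h1 : (c : ℝ) ≤ 1 := lim_le_one _ (map_max_le R S) hreg hf hc
  have h2 : c ≤ 1 := by exact_mod_cast h1
  refine le_antisymm (hup'.trans ?_) hab
  calc a * c ≤ a * 1 := Nat.mul_le_mul_left _ h2
    _ = a := mul_one a

/-- The upper bound for all local homomorphisms. -/
theorem upper_main (M : Type w) [AddCommGroup M] [Module R M] [Module.Finite R M]
    [Nontrivial M] (hdim : Module.supportDim S (S ⊗[R] M) = Module.supportDim R M +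
      Module.supportDim S (S ⧸ (maximalIdeal R).map (algebraMap R S))) :
    ∃ m f a b c : ℕ, HasMult R M m a ∧ HasFibreMult (algebraMap R S) f c ∧
      HasMult S (S ⊗[R] M) (m + f) b ∧ b ≤ a * c := by
  obtain ⟨m, hm⟩ := exists_dim_mod R M
  have : Nontrivial (S ⧸ (maximalIdeal R).map (algebraMap R S)) :=
    Ideal.Quotient.nontrivial_iff.mpr
      (ne_top_of_le_ne_top (maximalIdeal.isMaximal S).ne_top (map_max_le R S))
  obtain ⟨f, hf⟩ := exists_dim_mod S (S ⧸ (maximalIdeal R).map (algebraMap R S))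
  have hb : Module.supportDim S (S ⊗[R] M) = (m + f : ℕ) := by
    rw [hdim, hm, hf]
    push_cast
    rfl
  obtain ⟨a, ha'⟩ := exists_gs R M hm
  obtain ⟨b, hb'⟩ := exists_gs S (S ⊗[R] M) hb
  obtain ⟨c, hc'⟩ := exists_gs S (S ⧸ (maximalIdeal R).map (algebraMap R S)) hf
  have hup : (b : ℝ) ≤ a * c := upper_bound M ha' hb' hc'
  exact ⟨m, f, a, b, c, ⟨hm, ha'⟩, ⟨hf, hc'⟩, ⟨hb, hb'⟩, by exact_mod_cast hup⟩

/-- The two-sided bound for rings. -/
theorem ring_main [Module.Flat R S] : TwoSidedBound (algebraMap R S) := by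
  obtain ⟨m, f, a, b, c, ha, hc, hb, hab, hbc, hreg, -⟩ := flat_main (R := R) (S := S) R
  have key : ∀ (B : Type v) [CommRing B] [IsLocalRing B] (n e : ℕ), HasMult B B n e →
      HasRingMult B n e := by
    intro B _ _ n e h
    refine ⟨?_, ?_⟩
    · rw [← Module.supportDim_self_eq_ringKrullDim]
      exact h.1
    · refine h.2.congr fun N => ?_
      have h1 : (maximalIdeal B ^ N • (⊤ : Submodule B B)) = maximalIdeal B ^ N := by
        rw [smul_eq_mul, Ideal.mul_top]
      rw [h1]
  have key' : ∀ (B : Type u) [CommRing B] [IsLocalRing B] (n e : ℕ), HasMult B B n e →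
      HasRingMult B n e := by
    intro B _ _ n e h
    refine ⟨?_, ?_⟩
    · rw [← Module.supportDim_self_eq_ringKrullDim]
      exact h.1
    · refine h.2.congr fun N => ?_
      have h1 : (maximalIdeal B ^ N • (⊤ : Submodule B B)) = maximalIdeal B ^ N := by
        rw [smul_eq_mul, Ideal.mul_top]
      rw [h1]
  have e1 : S ⊗[R] R ≃ₗ[S] S := TensorProduct.AlgebraTensorModule.rid R S S
  have hb2 : HasMult S S (m + f) b := by
    refine ⟨?_, ?_⟩
    · rw [← Module.supportDim_eq_of_equiv e1]
      exact hb.1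
    · have h2 := hb.2
      change Tendsto (gs S (S ⊗[R] R) (m + f)) atTop (𝓝 (b : ℝ)) at h2
      rw [gs_congr e1] at h2
      exact h2
  exact ⟨m, f, a, b, c, key' R m a ha, hc, key S (m + f) b hb2, hab, hbc, hreg,
    sectionBound_of hb2.2⟩

end main

/-- The two-sided bound for flat morphisms of schemes. -/
theorem scheme_main {X Y : AlgebraicGeometry.Scheme.{u}} [AlgebraicGeometry.IsLocallyNoetherian X]
    [AlgebraicGeometry.IsLocallyNoetherian Y] (φ : X ⟶ Y) [AlgebraicGeometry.Flat φ] (x : X) :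
    TwoSidedBound (φ.stalkMap x).hom := by
  have h1 : (φ.stalkMap x).hom.Flat := AlgebraicGeometry.Flat.stalkMap φ x
  algebraize [(φ.stalkMap x).hom]
  have h2 : IsLocalHom (algebraMap (Y.presheaf.stalk (φ x)) (X.presheaf.stalk x)) :=
    inferInstanceAs (IsLocalHom (φ.stalkMap x).hom)
  exact ring_main (R := Y.presheaf.stalk (φ x)) (S := X.presheaf.stalk x)

end Vale.Agent.P202.H664
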