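import Mathlib

/-!
# An upper bound for the lengths of a base change
-/

namespace Vale.Agent.P202.H664

open IsLocalRing TensorProduct

section basic

variable {B : Type*} [CommRing B]

/-- adding one generator killed by `J`. -/
theorem length_add_one {T : Type*} [AddCommGroup T] [Module B T] (U : Submodule B T) (J : Ideal B)
    (y : T) (h : ∀ a ∈ J, a • y ∈ U) :
    Module.length B (T ⧸ U) ≤
      Module.length B (T ⧸ (U ⊔ Submodule.span B {y})) + Module.length B (B ⧸ J) := by
  let V : Submodule B T := U ⊔ Submodule.span B {y}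
  let g : (T ⧸ U) →ₗ[B] (T ⧸ V) := Submodule.factor (le_sup_left : U ≤ V)
  have hg : Function.Surjective g := Submodule.factor_surjective _
  have h1 : Module.length B (T ⧸ U) =
      Module.length B (LinearMap.ker g) + Module.length B (T ⧸ V) :=
    Module.length_eq_add_of_exact (LinearMap.ker g).subtype g (Submodule.subtype_injective _) hg
      (LinearMap.exact_subtype_ker_map g)
  have h2 : Module.length B (LinearMap.ker g) ≤ Module.length B (B ⧸ J) := by
    let f0 : B →ₗ[B] (T ⧸ U) := (Submodule.mkQ U).comp (LinearMap.toSpanSingleton B T y)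
    have hf0 : J ≤ LinearMap.ker f0 := by
      intro a ha
      rw [LinearMap.mem_ker]
      show Submodule.Quotient.mk (a • y) = _
      rw [Submodule.Quotient.mk_eq_zero]
      exact h a ha
    let f1 : (B ⧸ J) →ₗ[B] (T ⧸ U) := Submodule.liftQ J f0 hf0
    have hf1 : LinearMap.range f1 = LinearMap.ker g := by
      apply le_antisymm
      · rintro _ ⟨b, rfl⟩
        obtain ⟨b, rfl⟩ := Submodule.Quotient.mk_surjective _ b
        rw [LinearMap.mem_ker]
        show Submodule.Quotient.mk (b • y) = _
        rw [Submodule.Quotient.mk_eq_zero]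
        exact Submodule.smul_mem _ _ (Submodule.mem_sup_right (Submodule.mem_span_singleton_self y))
      · intro t ht
        obtain ⟨t, rfl⟩ := Submodule.Quotient.mk_surjective _ t
        rw [LinearMap.mem_ker] at ht
        have ht' : (Submodule.Quotient.mk t : T ⧸ V) = 0 := ht
        rw [Submodule.Quotient.mk_eq_zero] at ht'
        obtain ⟨u, hu, v, hv, rfl⟩ := Submodule.mem_sup.1 ht'
        obtain ⟨b, rfl⟩ := Submodule.mem_span_singleton.1 hv
        refine ⟨Submodule.Quotient.mk b, ?_⟩
        show Submodule.Quotient.mk (b • y) = _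
        rw [Submodule.Quotient.mk_add, (Submodule.Quotient.mk_eq_zero U).2 hu, zero_add]
    rw [← hf1]
    exact Module.length_le_of_surjective f1.rangeRestrict f1.surjective_rangeRestrict
  rw [h1, add_comm]
  gcongr

/-- adding finitely many generators killed by `J`. -/
theorem length_add_finset {T : Type*} [AddCommGroup T] [Module B T] (J : Ideal B)
    (s : Finset T) : ∀ (U : Submodule B T), (∀ y ∈ s, ∀ a ∈ J, a • y ∈ U) →
    Module.length B (T ⧸ U) ≤
      Module.length B (T ⧸ (U ⊔ Submodule.span B (s : Set T))) +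
        (s.card : ℕ∞) * Module.length B (B ⧸ J) := by
  classical
  induction s using Finset.induction_on with
  | empty =>
    intro U _
    rw [Finset.coe_empty, Submodule.span_empty, sup_bot_eq, Finset.card_empty, Nat.cast_zero,
      zero_mul, add_zero]
  | insert y s hy ih =>
    intro U hU
    have h1 := length_add_one U J y (hU y (Finset.mem_insert_self y s))
    have h2 := ih (U ⊔ Submodule.span B {y}) fun z hz a ha =>
      Submodule.mem_sup_left (hU z (Finset.mem_insert_of_mem hz) a ha)
    have h3 : U ⊔ Submodule.span B {y} ⊔ Submodule.span B (s : Set T) =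
        U ⊔ Submodule.span B ((insert y s : Finset T) : Set T) := by
      rw [sup_assoc, ← Submodule.span_union, Finset.coe_insert, Set.insert_eq]
    rw [h3] at h2
    rw [Finset.card_insert_of_notMem hy]
    calc Module.length B (T ⧸ U) ≤ _ := h1
      _ ≤ (Module.length B (T ⧸ (U ⊔ Submodule.span B ((insert y s : Finset T) : Set T))) +
        (s.card : ℕ∞) * Module.length B (B ⧸ J)) + Module.length B (B ⧸ J) := by gcongr
      _ = _ := by
        push_cast
        ring

/-- the length of `(B/J)/I(B/J)`. -/
theorem length_quot_quot (J I : Ideal B) :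
    Module.length B ((B ⧸ J) ⧸ (I • (⊤ : Submodule B (B ⧸ J)))) =
      Module.length B (B ⧸ (J ⊔ I)) := by
  let f : B →ₗ[B] ((B ⧸ J) ⧸ (I • (⊤ : Submodule B (B ⧸ J)))) :=
    (Submodule.mkQ _).comp (Submodule.mkQ J)
  have hf : Function.Surjective f := (Submodule.mkQ_surjective _).comp (Submodule.mkQ_surjective J)
  have hk : LinearMap.ker f = J ⊔ I := by
    rw [LinearMap.ker_comp, Submodule.ker_mkQ]
    have h1 : (I • (⊤ : Submodule B (B ⧸ J))) = Submodule.map (Submodule.mkQ J) I := by
      have h2 : (⊤ : Submodule B (B ⧸ J)) = Submodule.map (Submodule.mkQ J) ⊤ := by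
        rw [Submodule.map_top, Submodule.range_mkQ]
      rw [h2, ← Submodule.map_smul'']
      congr 1
      show I • (⊤ : Ideal B) = I
      rw [smul_eq_mul, Ideal.mul_top]
    rw [h1, Submodule.comap_map_eq, Submodule.ker_mkQ, sup_comm]
  have e := (Submodule.quotEquivOfEq _ _ hk.symm).trans (LinearMap.quotKerEquivOfSurjective f hf)
  exact e.length_eq.symm

end basic

section gens

variable {R : Type*} [CommRing R] [IsLocalRing R]

/-- generators of a submodule: `N` has a generating set with `ℓ(N/𝔪N)` elements. -/
theorem exists_gens {M : Type*} [AddCommGroup M] [Module R M] (N : Submodule R M) (hN : N.FG) :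
    ∃ s : Finset M, (s.card : ℕ∞) =
        Module.length R (N ⧸ (maximalIdeal R • (⊤ : Submodule R N))) ∧
      Submodule.span R (s : Set M) = N := by
  obtain ⟨s, hs, hsp⟩ := hN.exists_span_finset_card_eq_spanFinrank
  refine ⟨s, ?_, hsp⟩
  rw [hs, IsLocalRing.spanFinrank_eq_finrank_quotient N hN]
  let : Field (R ⧸ maximalIdeal R) := Ideal.Quotient.field _
  have h1 : Module.length R (N ⧸ (maximalIdeal R • (⊤ : Submodule R N))) =
      Module.length (R ⧸ maximalIdeal R) (N ⧸ (maximalIdeal R • (⊤ : Submodule R N))) :=
    (Module.length_eq_of_surjective (S := R) (R := R ⧸ maximalIdeal R)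
      (M := N ⧸ (maximalIdeal R • (⊤ : Submodule R N))) Ideal.Quotient.mk_surjective)
  have : Module.Finite R N := Module.Finite.iff_fg.mpr hN
  have : Module.Finite (R ⧸ maximalIdeal R) (N ⧸ (maximalIdeal R • (⊤ : Submodule R N))) :=
    Module.Finite.of_restrictScalars_finite R _ _
  rw [h1, Module.length_eq_finrank]

/-- `ℓ(M/𝔪^{i+1}M) = ℓ(M/𝔪^i M) + ℓ(N/𝔪N)` for `N = 𝔪^i M`. -/
theorem length_succ (M : Type*) [AddCommGroup M] [Module R M] (i : ℕ) :
    Module.length R (M ⧸ (maximalIdeal R ^ (i + 1) • (⊤ : Submodule R M))) =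
      Module.length R (M ⧸ (maximalIdeal R ^ i • (⊤ : Submodule R M))) +
      Module.length R ((maximalIdeal R ^ i • (⊤ : Submodule R M) : Submodule R M) ⧸
        (maximalIdeal R • (⊤ : Submodule R (maximalIdeal R ^ i • (⊤ : Submodule R M) :
          Submodule R M)))) := by
  set N : Submodule R M := maximalIdeal R ^ i • (⊤ : Submodule R M) with hN
  set N' : Submodule R M := maximalIdeal R ^ (i + 1) • (⊤ : Submodule R M) with hN'
  have hNN : N' = maximalIdeal R • N := by
    rw [hN', hN, ← mul_smul, pow_succ', ← smul_eq_mul]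
  have hle : N' ≤ N := by
    rw [hNN]
    exact Submodule.smul_le_right
  have hcomap : N'.comap N.subtype = maximalIdeal R • (⊤ : Submodule R N) := by
    have h1 : (maximalIdeal R • (⊤ : Submodule R N)).map N.subtype = N' := by
      rw [Submodule.map_smul'', Submodule.map_top, Submodule.range_subtype, hNN]
    rw [← h1, Submodule.comap_map_eq_of_injective (Submodule.subtype_injective N)]
  rw [← hcomap, add_comm]
  refine Module.length_eq_add_of_exact (Submodule.mapQ _ _ N.subtype le_rfl)
    (Submodule.factor hle) ?_ (Submodule.factor_surjective hle) ?_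
  · rw [← LinearMap.ker_eq_bot, LinearMap.ker_eq_bot']
    intro m hm
    obtain ⟨m, rfl⟩ := Submodule.Quotient.mk_surjective _ m
    rw [Submodule.mapQ_apply, Submodule.Quotient.mk_eq_zero] at hm
    rw [Submodule.Quotient.mk_eq_zero]
    exact hm
  · intro m
    obtain ⟨m, rfl⟩ := Submodule.Quotient.mk_surjective _ m
    constructor
    · intro hm
      have hm' : (Submodule.Quotient.mk m : M ⧸ N) = 0 := hm
      rw [Submodule.Quotient.mk_eq_zero] at hm'
      exact ⟨Submodule.Quotient.mk ⟨m, hm'⟩, rfl⟩
    · rintro ⟨n, hn⟩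
      obtain ⟨n, rfl⟩ := Submodule.Quotient.mk_surjective _ n
      rw [← hn]
      show (Submodule.Quotient.mk (n : M) : M ⧸ N) = 0
      rw [Submodule.Quotient.mk_eq_zero]
      exact n.2

end gens

end Vale.Agent.P202.H664
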