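import Vale.Agent.P202.H664.Len

/-!
# An upper bound for the lengths of a base change, part 2
-/

namespace Vale.Agent.P202.H664

open IsLocalRing TensorProduct

section base

variable {R S : Type*} [CommRing R] [CommRing S] [Algebra R S] {M : Type*} [AddCommGroup M]
  [Module R M]

theorem smul_top_le_baseChange (I : Ideal R) :
    (I.map (algebraMap R S)) • (⊤ : Submodule S (S ⊗[R] M)) ≤
      (I • (⊤ : Submodule R M)).baseChange S := by
  rw [Submodule.smul_le]
  intro a ha t _
  refine Submodule.span_induction (p := fun a _ => a • t ∈ (I • (⊤ : Submodule R M)).baseChange S)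
    ?_ ?_ ?_ ?_ ha
  · rintro _ ⟨r, hr, rfl⟩
    induction t using TensorProduct.induction_on with
    | zero => rw [smul_zero]; exact Submodule.zero_mem _
    | tmul s m =>
      have h1 : (algebraMap R S r) • (s ⊗ₜ[R] m) = s ⊗ₜ[R] (r • m) := by
        rw [TensorProduct.tmul_smul, algebraMap_smul]
      rw [h1]
      exact Submodule.tmul_mem_baseChange_of_mem s (Submodule.smul_mem_smul hr Submodule.mem_top)
    | add x y hx hy =>
      rw [smul_add]
      exact Submodule.add_mem _ (hx Submodule.mem_top) (hy Submodule.mem_top)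
  · rw [zero_smul]; exact Submodule.zero_mem _
  · intro x y _ _ hx hy
    rw [add_smul]
    exact Submodule.add_mem _ hx hy
  · intro c x _ hx
    rw [smul_eq_mul, mul_smul]
    exact Submodule.smul_mem _ _ hx

theorem one_tmul_mem (I : Ideal R) {x : M} (hx : x ∈ I • (⊤ : Submodule R M)) :
    (1 : S) ⊗ₜ[R] x ∈ (I.map (algebraMap R S)) • (⊤ : Submodule S (S ⊗[R] M)) := by
  refine Submodule.smul_induction_on hx ?_ ?_
  · intro r hr m _
    have h1 : (1 : S) ⊗ₜ[R] (r • m) = (algebraMap R S r) • ((1 : S) ⊗ₜ[R] m) := by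
      rw [TensorProduct.tmul_smul, algebraMap_smul]
    rw [h1]
    exact Submodule.smul_mem_smul (Ideal.mem_map_of_mem _ hr) Submodule.mem_top
  · intro x y hx hy
    rw [TensorProduct.tmul_add]
    exact Submodule.add_mem _ hx hy

end base

section local_

variable {R S : Type*} [CommRing R] [IsLocalRing R] [IsNoetherianRing R]
  [CommRing S] [IsLocalRing S] [Algebra R S] [IsLocalHom (algebraMap R S)]
  (M : Type*) [AddCommGroup M] [Module R M] [Module.Finite R M]

omit [IsNoetherianRing R] in
variable (R S) in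
theorem map_max_le : (maximalIdeal R).map (algebraMap R S) ≤ maximalIdeal S := by
  rw [Ideal.map_le_iff_le_comap]
  intro a ha
  exact (IsLocalRing.mem_maximalIdeal _).mpr fun h =>
    (IsLocalRing.mem_maximalIdeal _).mp ha (isUnit_of_map_unit (algebraMap R S) a h)

/-- the number of generators of `𝔪^i M` -/
noncomputable def mu (R : Type*) [CommRing R] [IsLocalRing R] (M : Type*) [AddCommGroup M]
    [Module R M] (i : ℕ) : ℕ∞ :=
  Module.length R ((maximalIdeal R ^ i • (⊤ : Submodule R M) : Submodule R M) ⧸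
        (maximalIdeal R • (⊤ : Submodule R (maximalIdeal R ^ i • (⊤ : Submodule R M) :
          Submodule R M))))

theorem length_step {N i : ℕ} (hi : i < N) :
    Module.length S ((S ⊗[R] M) ⧸
      ((((maximalIdeal R).map (algebraMap R S)) ^ (i + 1) • (⊤ : Submodule S (S ⊗[R] M))) ⊔
        (maximalIdeal S ^ N • (⊤ : Submodule S (S ⊗[R] M))))) ≤
    Module.length S ((S ⊗[R] M) ⧸
      ((((maximalIdeal R).map (algebraMap R S)) ^ i • (⊤ : Submodule S (S ⊗[R] M))) ⊔
        (maximalIdeal S ^ N • (⊤ : Submodule S (S ⊗[R] M))))) +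
    mu R M i * Module.length S ((S ⧸ (maximalIdeal R).map (algebraMap R S)) ⧸
      (maximalIdeal S ^ (N - i) • (⊤ : Submodule S (S ⧸ (maximalIdeal R).map
        (algebraMap R S))))) := by
  classical
  set K := (maximalIdeal R).map (algebraMap R S) with hK
  have hKn : K ≤ maximalIdeal S := map_max_le R S
  have hfg : (maximalIdeal R ^ i • (⊤ : Submodule R M) : Submodule R M).FG :=
    IsNoetherian.noetherian _
  obtain ⟨s, hs, hsp⟩ := exists_gens (maximalIdeal R ^ i • (⊤ : Submodule R M)) hfg
  let s' : Finset (S ⊗[R] M) := s.image (fun x => (1 : S) ⊗ₜ[R] x)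
  have hcard : (s'.card : ℕ∞) ≤ mu R M i := by
    unfold mu
    rw [← hs]
    exact_mod_cast Finset.card_image_le
  have hKi : (K ^ i) = ((maximalIdeal R) ^ i).map (algebraMap R S) := by
    rw [hK, Ideal.map_pow]
  set W : Submodule S (S ⊗[R] M) := maximalIdeal S ^ N • ⊤ with hW
  have hy : ∀ y ∈ s', y ∈ K ^ i • (⊤ : Submodule S (S ⊗[R] M)) := by
    intro y hy
    obtain ⟨x, hx, rfl⟩ := Finset.mem_image.1 hy
    rw [hKi]
    refine one_tmul_mem _ ?_
    rw [← hsp]
    exact Submodule.subset_span hx
  have h1 := length_add_finset (K ⊔ maximalIdeal S ^ (N - i)) s'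
    (K ^ (i + 1) • (⊤ : Submodule S (S ⊗[R] M)) ⊔ W) (by
      intro y hys a ha
      obtain ⟨b, hb, c, hc, rfl⟩ := Submodule.mem_sup.1 ha
      rw [add_smul]
      refine Submodule.add_mem _ (Submodule.mem_sup_left ?_) (Submodule.mem_sup_right ?_)
      · rw [pow_succ', ← smul_eq_mul, smul_assoc]
        exact Submodule.smul_mem_smul hb (hy y hys)
      · have h2 : y ∈ maximalIdeal S ^ i • (⊤ : Submodule S (S ⊗[R] M)) :=
          Submodule.smul_mono (Ideal.pow_right_mono hKn i) le_rfl (hy y hys)
        have h3 : c • y ∈ maximalIdeal S ^ (N - i) •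
            (maximalIdeal S ^ i • (⊤ : Submodule S (S ⊗[R] M))) :=
          Submodule.smul_mem_smul hc h2
        rw [← smul_assoc, smul_eq_mul, ← pow_add, Nat.sub_add_cancel hi.le] at h3
        exact h3)
  have h2 : K ^ i • (⊤ : Submodule S (S ⊗[R] M)) ⊔ W ≤
      K ^ (i + 1) • (⊤ : Submodule S (S ⊗[R] M)) ⊔ W ⊔ Submodule.span S (s' : Set (S ⊗[R] M)) := by
    refine sup_le ?_ (le_sup_right.trans le_sup_left)
    refine le_trans ?_ le_sup_right
    rw [hKi]
    refine (smul_top_le_baseChange _).trans ?_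
    rw [← hsp, Submodule.baseChange_span]
    refine Submodule.span_mono ?_
    rintro _ ⟨x, hx, rfl⟩
    exact Finset.mem_coe.2 (Finset.mem_image_of_mem _ hx)
  refine h1.trans ?_
  rw [length_quot_quot]
  refine add_le_add ?_ ?_
  · exact Module.length_le_of_surjective (Submodule.factor h2) (Submodule.factor_surjective h2)
  · gcongr

theorem length_sum (N : ℕ) : ∀ i ≤ N,
    Module.length S ((S ⊗[R] M) ⧸
      ((((maximalIdeal R).map (algebraMap R S)) ^ i • (⊤ : Submodule S (S ⊗[R] M))) ⊔
        (maximalIdeal S ^ N • (⊤ : Submodule S (S ⊗[R] M))))) ≤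
    ∑ j ∈ Finset.range i, mu R M j *
      Module.length S ((S ⧸ (maximalIdeal R).map (algebraMap R S)) ⧸
      (maximalIdeal S ^ (N - j) • (⊤ : Submodule S (S ⧸ (maximalIdeal R).map
        (algebraMap R S))))) := by
  intro i
  induction i with
  | zero =>
    intro _
    rw [pow_zero, Ideal.one_eq_top, Submodule.top_smul, top_sup_eq, Finset.range_zero,
      Finset.sum_empty, nonpos_iff_eq_zero, Module.length_eq_zero_iff]
    exact Submodule.Quotient.subsingleton_iff.2 rfl
  | succ i ih =>
    intro hi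
    rw [Finset.sum_range_succ]
    exact (length_step M (by omega : i < N)).trans (add_le_add (ih (by omega)) le_rfl)

/-- The upper bound for the lengths of a base change. -/
theorem length_le_sum (N : ℕ) :
    Module.length S ((S ⊗[R] M) ⧸ (maximalIdeal S ^ N • (⊤ : Submodule S (S ⊗[R] M)))) ≤
    ∑ j ∈ Finset.range N, mu R M j *
      Module.length S ((S ⧸ (maximalIdeal R).map (algebraMap R S)) ⧸
      (maximalIdeal S ^ (N - j) • (⊤ : Submodule S (S ⧸ (maximalIdeal R).map
        (algebraMap R S))))) := by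
  refine le_trans ?_ (length_sum (S := S) M N N le_rfl)
  have h : (((maximalIdeal R).map (algebraMap R S)) ^ N • (⊤ : Submodule S (S ⊗[R] M))) ⊔
        (maximalIdeal S ^ N • (⊤ : Submodule S (S ⊗[R] M))) ≤
      maximalIdeal S ^ N • (⊤ : Submodule S (S ⊗[R] M)) :=
    sup_le (Submodule.smul_mono (Ideal.pow_right_mono (map_max_le R S) N) le_rfl) le_rfl
  exact Module.length_le_of_surjective (Submodule.factor h) (Submodule.factor_surjective h)

end local_

end Vale.Agent.P202.H664
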