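import Mathlib

/-!
# Leading coefficients of a convolution
-/

namespace Vale.Agent.P202.H664

open PowerSeries Filter Topology

/-- coefficientwise inequality -/
def PLe (F G : PowerSeries ℝ) : Prop := ∀ n, coeff n F ≤ coeff n G

theorem PLe.mul_right {F G H : PowerSeries ℝ} (h : PLe F G) (hH : ∀ n, 0 ≤ coeff n H) :
    PLe (F * H) (G * H) := by
  intro n
  rw [coeff_mul, coeff_mul]
  exact Finset.sum_le_sum fun p _ => mul_le_mul_of_nonneg_right (h _) (hH _)

theorem coeff_E_pow (d n : ℕ) :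
    coeff n ((mk 1 : PowerSeries ℝ) ^ (d + 1)) = ((d + n).choose d : ℝ) := by
  rw [mk_one_pow_eq_mk_choose_add, coeff_mk]

theorem coeff_E_pow_nonneg (d n : ℕ) : 0 ≤ coeff n ((mk 1 : PowerSeries ℝ) ^ d) := by
  cases d with
  | zero =>
    rw [pow_zero, coeff_one]
    split_ifs <;> norm_num
  | succ d =>
    rw [coeff_E_pow]
    positivity

/-- The convolution bound. -/
theorem conv_bound {h g : ℕ → ℝ} (hg : Monotone g) (h0 : h 0 = 0) (g0 : g 0 = 0)
    {t : ℝ} {N : ℕ}
    (ht : t ≤ ∑ i ∈ Finset.range N, (h (i + 1) - h i) * g (N - i)) {A B C C' : ℝ} (hA : 0 ≤ A)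
    {d f : ℕ}
    (hb : ∀ i, h (i + 1) ≤ A * ((d + i).choose d : ℝ) + C)
    (gb : ∀ j, g j ≤ B * ((f + j).choose f : ℝ) + C') :
    t ≤ A * (B * ((d + f + N).choose (d + f) : ℝ) + C' * ((d + N).choose d : ℝ)) + C * g N := by
  set E : PowerSeries ℝ := mk 1 with hE
  have hE1 : E * (1 - PowerSeries.X) = 1 := mk_one_mul_one_sub_eq_one ℝ
  set H1 : PowerSeries ℝ := mk fun i => h (i + 1) with hH1
  set G : PowerSeries ℝ := mk g with hG
  have e1 : (1 - PowerSeries.X) * H1 = mk fun n => h (n + 1) - h n := by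
    ext n
    rw [sub_mul, one_mul, map_sub, hH1, coeff_mk, coeff_mk]
    cases n with
    | zero => rw [coeff_zero_X_mul, h0]
    | succ n => rw [coeff_succ_X_mul, coeff_mk]
  have e2 : ∀ n, 0 ≤ coeff n ((1 - PowerSeries.X) * G) := by
    intro n
    rw [sub_mul, one_mul, map_sub]
    cases n with
    | zero => rw [coeff_zero_X_mul, hG, coeff_mk, g0, sub_zero]
    | succ n =>
      rw [coeff_succ_X_mul, hG, coeff_mk, coeff_mk, sub_nonneg]
      exact hg (Nat.le_succ n)
  have e3 : t ≤ coeff N (((1 - PowerSeries.X) * H1) * G) := by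
    rw [e1, coeff_mul, Finset.Nat.sum_antidiagonal_eq_sum_range_succ
      (fun i j => coeff i (mk fun n => h (n + 1) - h n) * coeff j G), Finset.sum_range_succ]
    simp only [hG, coeff_mk, Nat.sub_self, g0, mul_zero, add_zero]
    exact ht
  have e4 : PLe H1 (A • E ^ (d + 1) + C • E ^ (0 + 1)) := by
    intro n
    rw [hH1, coeff_mk, map_add, coeff_smul, coeff_smul, hE, coeff_E_pow, coeff_E_pow]
    have := hb n
    simpa using this
  have e5 : PLe G (B • E ^ (f + 1) + C' • E ^ (0 + 1)) := by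
    intro n
    rw [hG, coeff_mk, map_add, coeff_smul, coeff_smul, hE, coeff_E_pow, coeff_E_pow]
    have := gb n
    simpa using this
  have e6 := e4.mul_right e2 N
  have e7 := e5.mul_right (H := E ^ d) (fun n => coeff_E_pow_nonneg d n) N
  have e8 : (A • E ^ (d + 1) + C • E ^ (0 + 1)) * ((1 - PowerSeries.X) * G) =
      A • (G * E ^ d) + C • G := by
    have h1 : E ^ (d + 1) * ((1 - PowerSeries.X) * G) = G * E ^ d := by
      calc E ^ (d + 1) * ((1 - PowerSeries.X) * G) = E ^ d * (E * (1 - PowerSeries.X)) * G := by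
            ring
        _ = G * E ^ d := by rw [hE1]; ring
    have h2 : E ^ (0 + 1) * ((1 - PowerSeries.X) * G) = G := by
      calc E ^ (0 + 1) * ((1 - PowerSeries.X) * G) = (E * (1 - PowerSeries.X)) * G := by ring
        _ = G := by rw [hE1]; ring
    rw [add_mul, smul_mul_assoc, smul_mul_assoc, h1, h2]
  have e9 : (B • E ^ (f + 1) + C' • E ^ (0 + 1)) * E ^ d =
      B • E ^ (d + f + 1) + C' • E ^ (d + 1) := by
    rw [add_mul, smul_mul_assoc, smul_mul_assoc, ← pow_add, ← pow_add]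
    congr 3 <;> ring
  have e10 : ((1 - PowerSeries.X) * H1) * G = H1 * ((1 - PowerSeries.X) * G) := by ring
  rw [e9, map_add, coeff_smul, coeff_smul, hE, coeff_E_pow, coeff_E_pow, ← hE] at e7
  rw [e8, map_add, coeff_smul, coeff_smul, hG, coeff_mk, ← hG] at e6
  rw [e10] at e3
  refine e3.trans (e6.trans ?_)
  simp only [smul_eq_mul] at e7 ⊢
  gcongr

theorem tendsto_add_div (c s : ℕ) :
    Tendsto (fun n : ℕ => (((n + c : ℕ) : ℝ) ^ s) / (n : ℝ) ^ s) atTop (𝓝 1) := by
  have h1 : Tendsto (fun n : ℕ => 1 + (c : ℝ) / n) atTop (𝓝 (1 + 0)) :=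
    tendsto_const_nhds.add (tendsto_const_div_atTop_nhds_zero_nat (c : ℝ))
  rw [add_zero] at h1
  have h2 := h1.pow s
  rw [one_pow] at h2
  refine h2.congr' ?_
  filter_upwards [eventually_gt_atTop 0] with n hn
  have : (n : ℝ) ≠ 0 := by positivity
  rw [← div_pow, Nat.cast_add]
  congr 1
  field_simp

theorem tendsto_choose_div (c s : ℕ) :
    Tendsto (fun n : ℕ => (s.factorial : ℝ) * (((c + n).choose s : ℕ) : ℝ) / (n : ℝ) ^ s) atTop
      (𝓝 1) := by
  have h0 := isEquivalent_choose s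
  have hz : ∀ᶠ x : ℕ in atTop, ((x : ℝ) ^ s / (s.factorial : ℝ)) ≠ 0 := by
    filter_upwards [eventually_gt_atTop 0] with n hn
    positivity
  rw [Asymptotics.isEquivalent_iff_tendsto_one hz] at h0
  have h1 := h0.comp (tendsto_add_atTop_nat c)
  have h2 := h1.mul (tendsto_add_div c s)
  rw [one_mul] at h2
  refine h2.congr' ?_
  filter_upwards [eventually_gt_atTop 0] with n hn
  have h3 : (n : ℝ) ≠ 0 := by positivity
  have h4 : (s.factorial : ℝ) ≠ 0 := by positivity
  have h5 : ((n + c : ℕ) : ℝ) ≠ 0 := by positivity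
  simp only [Function.comp_apply, Pi.div_apply]
  rw [add_comm c n]
  field_simp

/-- A bound by binomial coefficients. -/
theorem exists_bound {h : ℕ → ℝ} (hm : Monotone h) (h0 : h 0 = 0) {d : ℕ} {a : ℝ}
    (ha : Tendsto (fun N : ℕ => (d.factorial : ℝ) * h N / (N : ℝ) ^ d) atTop (𝓝 a)) {ε : ℝ}
    (hε : 0 < ε) : ∃ C : ℝ, 0 ≤ C ∧ (d = 0 → C = 0) ∧
      ∀ i, h (i + 1) ≤ (a + ε) * ((d + i).choose d : ℝ) + C := by
  have hnn : ∀ N, 0 ≤ h N := fun N => h0 ▸ hm (Nat.zero_le N)
  have ha0 : 0 ≤ a := ge_of_tendsto' ha fun N => by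
    have := hnn N
    positivity
  rcases Nat.eq_zero_or_pos d with rfl | hd
  · refine ⟨0, le_rfl, fun _ => rfl, fun i => ?_⟩
    simp only [Nat.factorial_zero, Nat.cast_one, one_mul, pow_zero, div_one] at ha
    have := hm.ge_of_tendsto ha (i + 1)
    simp only [Nat.choose_zero_right, Nat.cast_one, mul_one, add_zero]
    linarith
  · have h1 : ∀ᶠ N : ℕ in atTop, (d.factorial : ℝ) * h N / (N : ℝ) ^ d < a + ε :=
      ha.eventually (gt_mem_nhds (by linarith))
    obtain ⟨N0, hN0⟩ := eventually_atTop.1 h1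
    refine ⟨h (N0 + 1), hnn _, fun h => absurd h hd.ne', fun i => ?_⟩
    rcases le_or_gt N0 (i + 1) with hi | hi
    · have h2 := hN0 (i + 1) hi
      have h3 : (0 : ℝ) < ((i + 1 : ℕ) : ℝ) ^ d := by positivity
      rw [div_lt_iff₀ h3] at h2
      have h4 : (((i + 1 : ℕ) : ℝ) ^ d) / (d.factorial : ℝ) ≤ ((d + i).choose d : ℝ) := by
        have := Nat.pow_le_choose (α := ℝ) d (d + i)
        have e : d + i + 1 - d = i + 1 := by omega
        rw [e] at this
        exact this
      have h5 : (0 : ℝ) < (d.factorial : ℝ) := by positivity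
      have h6 : h (i + 1) ≤ (a + ε) * ((((i + 1 : ℕ) : ℝ) ^ d) / (d.factorial : ℝ)) := by
        rw [← mul_div_assoc, le_div_iff₀ h5]
        linarith
      have h7 := hnn (N0 + 1)
      have h8 : (a + ε) * ((((i + 1 : ℕ) : ℝ) ^ d) / (d.factorial : ℝ)) ≤
          (a + ε) * ((d + i).choose d : ℝ) := by
        gcongr
      linarith
    · have h2 : h (i + 1) ≤ h (N0 + 1) := hm (by omega)
      have h3 : 0 ≤ (a + ε) * ((d + i).choose d : ℝ) := by positivity
      linarith

theorem tendsto_lower {u : ℕ → ℝ} {k l : ℕ} (hkl : k ≤ l) {L C : ℝ} (hC : l = k → C = 0)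
    (hu : Tendsto (fun N : ℕ => (k.factorial : ℝ) * u N / (N : ℝ) ^ k) atTop (𝓝 L)) :
    Tendsto (fun N : ℕ => C * ((l.factorial : ℝ) * u N / (N : ℝ) ^ l)) atTop (𝓝 0) := by
  rcases hkl.eq_or_lt with rfl | hlt
  · rw [hC rfl]
    simp
  · have h2 : Tendsto (fun N : ℕ => ((N : ℝ) ^ (l - k))⁻¹) atTop (𝓝 0) := by
      have : Tendsto (fun N : ℕ => (N : ℝ) ^ (l - k)) atTop atTop :=
        (tendsto_pow_atTop (by omega)).comp tendsto_natCast_atTop_atTop
      exact this.inv_tendsto_atTop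
    have h3 := (hu.mul h2).const_mul (C * ((l.factorial : ℝ) / (k.factorial : ℝ)))
    rw [mul_zero, mul_zero] at h3
    refine h3.congr' ?_
    filter_upwards [eventually_gt_atTop 0] with N hN
    have hN' : (0 : ℝ) < N := by exact_mod_cast hN
    have h4 : (N : ℝ) ^ l = (N : ℝ) ^ k * (N : ℝ) ^ (l - k) := by
      rw [← pow_add]; congr 1; omega
    have h5 : (k.factorial : ℝ) ≠ 0 := by exact_mod_cast k.factorial_ne_zero
    rw [h4]
    field_simp

/-- **Leading coefficients of a convolution.** -/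
theorem le_mul_of_conv {h g t : ℕ → ℝ} (hm : Monotone h) (gm : Monotone g) (h0 : h 0 = 0)
    (g0 : g 0 = 0)
    (ht : ∀ N, t N ≤ ∑ i ∈ Finset.range N, (h (i + 1) - h i) * g (N - i)) {d f : ℕ} {a b c : ℝ}
    (ha : Tendsto (fun N : ℕ => (d.factorial : ℝ) * h N / (N : ℝ) ^ d) atTop (𝓝 a))
    (hc : Tendsto (fun N : ℕ => (f.factorial : ℝ) * g N / (N : ℝ) ^ f) atTop (𝓝 c))
    (hb : Tendsto (fun N : ℕ => ((d + f).factorial : ℝ) * t N / (N : ℝ) ^ (d + f)) atTop (𝓝 b)) :
    b ≤ a * c := by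
  have hnn : ∀ N, 0 ≤ h N := fun N => h0 ▸ hm (Nat.zero_le N)
  have gnn : ∀ N, 0 ≤ g N := fun N => g0 ▸ gm (Nat.zero_le N)
  have ha0 : 0 ≤ a := ge_of_tendsto' ha fun N => by
    have := hnn N
    positivity
  have key : ∀ ε : ℝ, 0 < ε → b ≤ (a + ε) * (c + ε) := by
    intro ε hε
    obtain ⟨C, hC0, hC, hCb⟩ := exists_bound hm h0 ha hε
    obtain ⟨C', hC'0, hC', hCb'⟩ := exists_bound gm g0 hc hε
    have hgb : ∀ j, g j ≤ (c + ε) * ((f + j).choose f : ℝ) + C' := fun j =>
      (gm (Nat.le_succ j)).trans (hCb' j)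
    have h1 : ∀ N, t N ≤ (a + ε) * ((c + ε) * ((d + f + N).choose (d + f) : ℝ) +
        C' * ((d + N).choose d : ℝ)) + C * g N := fun N =>
      conv_bound gm h0 g0 (ht N) (by linarith) hCb hgb
    have l1 := (tendsto_choose_div (d + f) (d + f)).const_mul ((a + ε) * (c + ε))
    have l2 := tendsto_lower (u := fun N => ((d + N).choose d : ℝ)) (k := d) (l := d + f)
      (C := (a + ε) * C') (by omega) (fun h => by rw [hC' (by omega), mul_zero])
      (tendsto_choose_div d d)
    have l3 := tendsto_lower (u := g) (k := f) (l := d + f) (C := C) (by omega)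
      (fun h => hC (by omega)) hc
    have l4 := (l1.add l2).add l3
    rw [mul_one, add_zero, add_zero] at l4
    refine le_of_tendsto_of_tendsto hb l4 ?_
    filter_upwards [eventually_gt_atTop 0] with N hN
    have hN' : (0 : ℝ) < N := by exact_mod_cast hN
    have h2 := h1 N
    have h3 : ((d + f).factorial : ℝ) * t N / (N : ℝ) ^ (d + f) ≤
        ((d + f).factorial : ℝ) * ((a + ε) * ((c + ε) * ((d + f + N).choose (d + f) : ℝ) +
        C' * ((d + N).choose d : ℝ)) + C * g N) / (N : ℝ) ^ (d + f) := by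
      gcongr
    refine h3.trans (le_of_eq ?_)
    ring
  have l : Tendsto (fun n : ℕ => (a + 1 / ((n : ℝ) + 1)) * (c + 1 / ((n : ℝ) + 1))) atTop
      (𝓝 ((a + 0) * (c + 0))) :=
    (tendsto_const_nhds.add tendsto_one_div_add_atTop_nhds_zero_nat).mul
      (tendsto_const_nhds.add tendsto_one_div_add_atTop_nhds_zero_nat)
  rw [add_zero, add_zero] at l
  exact ge_of_tendsto' l fun n => key _ (by positivity)

end Vale.Agent.P202.H664
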