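import Vale.Agent.P202.H664.Upper

/-!
# Hypersurface sections and regular closed fibres
-/

namespace Vale.Agent.P202.H664

open Filter Topology IsLocalRing TensorProduct Vale.Agent.P202 Vale.Agent.P202.H834

universe u v w

section sect

variable {B : Type*} [CommRing B] [IsLocalRing B] {T : Type*} [AddCommGroup T] [Module B T]

/-- the growth function of `T/U`. -/
noncomputable def wl (B : Type*) [CommRing B] [IsLocalRing B] {T : Type*} [AddCommGroup T]
    [Module B T] (U : Submodule B T) (N : ℕ) : ℕ∞ :=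
  Module.length B (T ⧸ (U ⊔ (maximalIdeal B ^ N • (⊤ : Submodule B T))))

theorem wl_zero (U : Submodule B T) : wl B U 0 = 0 := by
  unfold wl
  rw [pow_zero, Ideal.one_eq_top, Submodule.top_smul, sup_top_eq, Module.length_eq_zero_iff]
  exact Submodule.Quotient.subsingleton_iff.2 rfl

/-- one section. -/
theorem wl_step (U : Submodule B T) {x : B} (hx : x ∈ maximalIdeal B) (N : ℕ) :
    wl B U (N + 1) ≤ wl B U N + wl B (U ⊔ Ideal.span {x} • ⊤) (N + 1) := by
  unfold wl
  set W : Submodule B T := maximalIdeal B ^ N • ⊤ with hW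
  set W' : Submodule B T := maximalIdeal B ^ (N + 1) • ⊤ with hW'
  have hW'W : maximalIdeal B • W = W' := by
    rw [hW, hW', ← smul_assoc, smul_eq_mul, ← pow_succ']
  -- multiplication by `x`
  let f : (T ⧸ (U ⊔ W)) →ₗ[B] (T ⧸ (U ⊔ W')) :=
    Submodule.mapQ (U ⊔ W) (U ⊔ W') (LinearMap.lsmul B T x) (by
      intro t ht
      rw [Submodule.mem_comap]
      obtain ⟨a, ha, b, hb, rfl⟩ := Submodule.mem_sup.1 ht
      show x • (a + b) ∈ _
      rw [smul_add]
      refine Submodule.add_mem _ (Submodule.mem_sup_left (Submodule.smul_mem _ _ ha))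
        (Submodule.mem_sup_right ?_)
      rw [← hW'W]
      exact Submodule.smul_mem_smul hx hb)
  have hle : U ⊔ W' ≤ U ⊔ Ideal.span {x} • ⊤ ⊔ W' := sup_le_sup_right le_sup_left _
  let g : (T ⧸ (U ⊔ W')) →ₗ[B] (T ⧸ (U ⊔ Ideal.span {x} • ⊤ ⊔ W')) := Submodule.factor hle
  have hg : Function.Surjective g := Submodule.factor_surjective hle
  have h1 : Module.length B (T ⧸ (U ⊔ W')) =
      Module.length B (LinearMap.ker g) + Module.length B (T ⧸ (U ⊔ Ideal.span {x} • ⊤ ⊔ W')) :=
    Module.length_eq_add_of_exact (LinearMap.ker g).subtype g (Submodule.subtype_injective _) hg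
      (LinearMap.exact_subtype_ker_map g)
  have h2 : Module.length B (LinearMap.ker g) ≤ Module.length B (T ⧸ (U ⊔ W)) := by
    have h3 : LinearMap.ker g ≤ LinearMap.range f := by
      intro t ht
      obtain ⟨t, rfl⟩ := Submodule.Quotient.mk_surjective _ t
      rw [LinearMap.mem_ker] at ht
      have ht' : (Submodule.Quotient.mk t : T ⧸ (U ⊔ Ideal.span {x} • ⊤ ⊔ W')) = 0 := ht
      rw [Submodule.Quotient.mk_eq_zero] at ht'
      obtain ⟨a, ha, b, hb, rfl⟩ := Submodule.mem_sup.1 ht'
      obtain ⟨a1, ha1, a2, ha2, rfl⟩ := Submodule.mem_sup.1 ha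
      rw [Submodule.ideal_span_singleton_smul] at ha2
      obtain ⟨y, -, rfl⟩ := (Submodule.mem_smul_pointwise_iff_exists _ _ _).1 ha2
      refine ⟨Submodule.Quotient.mk y, ?_⟩
      show Submodule.Quotient.mk (x • y) = _
      rw [Submodule.Quotient.eq]
      have h4 : x • y - (a1 + x • y + b) = -(a1 + b) := by abel
      rw [h4]
      exact Submodule.neg_mem _ (Submodule.add_mem _ (Submodule.mem_sup_left ha1)
        (Submodule.mem_sup_right hb))
    calc Module.length B (LinearMap.ker g) ≤ Module.length B (LinearMap.range f) :=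
          Module.length_le_of_injective (Submodule.inclusion h3) (Submodule.inclusion_injective h3)
      _ ≤ _ := Module.length_le_of_surjective f.rangeRestrict f.surjective_rangeRestrict
  rw [h1]
  gcongr

theorem wl_le_sum (U : Submodule B T) {x : B} (hx : x ∈ maximalIdeal B) (N : ℕ) :
    wl B U N ≤ ∑ i ∈ Finset.range N, wl B (U ⊔ Ideal.span {x} • ⊤) (i + 1) := by
  induction N with
  | zero => rw [wl_zero]; exact zero_le
  | succ N ih =>
    rw [Finset.sum_range_succ]
    exact (wl_step U hx N).trans (add_le_add ih le_rfl)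

end sect


section list

variable {B : Type*} [CommRing B] [IsLocalRing B] {T : Type*} [AddCommGroup T] [Module B T]

theorem sumf_mono {L L' : ℕ → ℕ∞} (h : ∀ i, L i ≤ L' i) (j : ℕ) : sumf L j ≤ sumf L' j := by
  unfold sumf
  exact Finset.sum_le_sum fun i _ => h (i + 1)

theorem sumf_iter_mono {L L' : ℕ → ℕ∞} (h : ∀ i, L i ≤ L' i) (n : ℕ) :
    ∀ j, sumf^[n] L j ≤ sumf^[n] L' j := by
  induction n with
  | zero => exact h
  | succ n ih =>
    intro j
    rw [Function.iterate_succ_apply', Function.iterate_succ_apply']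
    exact sumf_mono ih j

theorem wl_list (l : List B) : ∀ (_ : ∀ x ∈ l, x ∈ maximalIdeal B) (U : Submodule B T) (N : ℕ),
    wl B U N ≤ sumf^[l.length] (wl B (U ⊔ Ideal.span {x | x ∈ l} • ⊤)) N := by
  induction l with
  | nil =>
    intro _ U N
    have h : ({x : B | x ∈ ([] : List B)} : Set B) = ∅ := by
      ext x
      simp
    rw [List.length_nil, Function.iterate_zero, id, h, Ideal.span_empty, Submodule.bot_smul,
      sup_bot_eq]
  | cons x l ih =>
    intro hl U N
    have h1 : ∀ N, wl B U N ≤ sumf (wl B (U ⊔ Ideal.span {x} • ⊤)) N := fun N =>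
      wl_le_sum U (hl x List.mem_cons_self) N
    have h2 := ih (fun y hy => hl y (List.mem_cons_of_mem _ hy)) (U ⊔ Ideal.span {x} • ⊤)
    have h3 : U ⊔ Ideal.span {x} • ⊤ ⊔ Ideal.span {y | y ∈ l} • (⊤ : Submodule B T) =
        U ⊔ Ideal.span {y | y ∈ x :: l} • ⊤ := by
      rw [sup_assoc, ← Submodule.sup_smul, ← Ideal.span_union]
      congr 3
      ext y
      simp [List.mem_cons]
    rw [h3] at h2
    rw [List.length_cons, Function.iterate_succ_apply']
    exact (h1 N).trans (sumf_mono h2 N)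

theorem length_quot_mod (U : Submodule B T) (J : Ideal B) :
    Module.length B ((T ⧸ U) ⧸ (J • (⊤ : Submodule B (T ⧸ U)))) =
      Module.length B (T ⧸ (U ⊔ J • (⊤ : Submodule B T))) := by
  let f : T →ₗ[B] ((T ⧸ U) ⧸ (J • (⊤ : Submodule B (T ⧸ U)))) :=
    (Submodule.mkQ _).comp (Submodule.mkQ U)
  have hf : Function.Surjective f := (Submodule.mkQ_surjective _).comp (Submodule.mkQ_surjective U)
  have hk : LinearMap.ker f = U ⊔ J • ⊤ := by
    rw [LinearMap.ker_comp, Submodule.ker_mkQ]
    have h1 : (J • (⊤ : Submodule B (T ⧸ U))) = Submodule.map (Submodule.mkQ U) (J • ⊤) := by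
      have h2 : (⊤ : Submodule B (T ⧸ U)) = Submodule.map (Submodule.mkQ U) ⊤ := by
        rw [Submodule.map_top, Submodule.range_mkQ]
      rw [h2, ← Submodule.map_smul'']
    rw [h1, Submodule.comap_map_eq, Submodule.ker_mkQ, sup_comm]
  have e := (Submodule.quotEquivOfEq _ _ hk.symm).trans (LinearMap.quotKerEquivOfSurjective f hf)
  exact e.length_eq.symm

theorem wl_eq (U : Submodule B T) (N : ℕ) :
    wl B U N = Module.length B ((T ⧸ U) ⧸ (maximalIdeal B ^ N • (⊤ : Submodule B (T ⧸ U)))) :=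
  (length_quot_mod U _).symm

variable [IsNoetherianRing B] [Module.Finite B T]

theorem wl_ne_top (U : Submodule B T) (N : ℕ) : wl B U N ≠ ⊤ := by
  rw [wl_eq]
  exact tc_fin B (T ⧸ U) N

theorem wl_toNat (U : Submodule B T) (N : ℕ) : (wl B U N).toNat = tcl B (T ⧸ U) N := by
  rw [wl_eq]
  rfl

theorem gs_bot : gs B T = gs B (T ⧸ (⊥ : Submodule B T)) := by
  funext n
  exact gs_congr (Submodule.quotEquivOfEqBot _ rfl).symm n

/-- hypersurface sections do not decrease the multiplicity. -/
theorem lim_le_list {s : ℕ} (l : List B) (hl : ∀ x ∈ l, x ∈ maximalIdeal B) {e e' : ℝ}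
    (he : Tendsto (gs B T (s + l.length)) atTop (𝓝 e))
    (he' : Tendsto (gs B (T ⧸ (Ideal.span {x | x ∈ l} • (⊤ : Submodule B T))) s) atTop (𝓝 e')) :
    e ≤ e' := by
  have h1 := wl_list l hl (⊥ : Submodule B T)
  rw [bot_sup_eq] at h1
  have h2 : Tendsto (fun N : ℕ => (s.factorial : ℝ) *
      ((wl B (Ideal.span {x | x ∈ l} • (⊤ : Submodule B T)) N).toNat : ℝ) / (N : ℝ) ^ s) atTop
      (𝓝 e') := by
    refine he'.congr fun N => ?_
    unfold gs
    rw [wl_toNat]
  obtain ⟨h3, h4⟩ := sumf_iterate_tendsto (fun N => wl_ne_top _ N) h2 l.length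
  rw [gs_bot] at he
  refine le_of_tendsto_of_tendsto' he h4 fun N => ?_
  unfold gs
  rw [← wl_toNat]
  have h5 : (wl B (⊥ : Submodule B T) N).toNat ≤ (sumf^[l.length]
      (wl B (Ideal.span {x | x ∈ l} • (⊤ : Submodule B T))) N).toNat :=
    ENat.toNat_le_toNat (h1 N) (h3 N)
  gcongr

/-- hypersurface sections do not decrease the multiplicity. -/
theorem lim_le {s r : ℕ} (x : Fin r → B) (hx : ∀ i, x i ∈ maximalIdeal B) {e e' : ℝ}
    (he : Tendsto (gs B T (s + r)) atTop (𝓝 e))
    (he' : Tendsto (gs B (T ⧸ (Ideal.span (Set.range x) • (⊤ : Submodule B T))) s) atTop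
      (𝓝 e')) : e ≤ e' := by
  have h1 : ({y | y ∈ List.ofFn x} : Set B) = Set.range x := by
    ext y
    simp [List.mem_ofFn]
  refine lim_le_list (T := T) (s := s) (List.ofFn x) ?_ ?_ ?_
  · intro y hy
    obtain ⟨i, rfl⟩ := (List.mem_ofFn.1 hy)
    exact hx i
  · rw [List.length_ofFn]
    exact he
  · rw [h1]
    exact he'

end list

section regular

variable {S : Type*} [CommRing S] [IsLocalRing S] [IsNoetherianRing S]

/-- the multiplicity of a regular closed fibre is at most one. -/
theorem lim_le_one (K : Ideal S) (hK : K ≤ maximalIdeal S) (hreg : IsRegularLocalRing (S ⧸ K))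
    {f : ℕ} (hf : ringKrullDim (S ⧸ K) = f) {c : ℝ}
    (hc : Tendsto (gs S (S ⧸ K) f) atTop (𝓝 c)) : c ≤ 1 := by
  classical
  have hfg : (maximalIdeal (S ⧸ K)).FG := (maximalIdeal (S ⧸ K)).fg_of_isNoetherianRing
  obtain ⟨s, hs, hsp⟩ := Submodule.FG.exists_span_finset_card_eq_spanFinrank hfg
  have hcard : s.card = f := by
    have h1 := hreg.spanFinrank_maximalIdeal
    rw [hf] at h1
    rw [hs]
    exact_mod_cast h1
  let lift : S ⧸ K → S := Function.surjInv Ideal.Quotient.mk_surjective
  have hlift : ∀ y, Ideal.Quotient.mk K (lift y) = y :=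
    Function.surjInv_eq Ideal.Quotient.mk_surjective
  let l : List S := s.toList.map lift
  have hlen : l.length = f := by
    rw [List.length_map, Finset.length_toList, hcard]
  have hmap : Ideal.map (Ideal.Quotient.mk K) (Ideal.span {x | x ∈ l}) = maximalIdeal (S ⧸ K) := by
    rw [Ideal.map_span, ← hsp]
    show Submodule.span _ _ = _
    congr 1
    ext y
    constructor
    · rintro ⟨x, hx, rfl⟩
      obtain ⟨z, hz, rfl⟩ := List.mem_map.1 hx
      rw [hlift]
      exact Finset.mem_coe.2 (Finset.mem_toList.1 hz)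
    · intro hy
      exact ⟨lift y, List.mem_map.2 ⟨y, Finset.mem_toList.2 (Finset.mem_coe.1 hy), rfl⟩, hlift y⟩
  have hcomap : K ⊔ Ideal.span {x | x ∈ l} = maximalIdeal S := by
    have h1 : (maximalIdeal (S ⧸ K)).comap (Ideal.Quotient.mk K) = maximalIdeal S := by
      have h2 := tc_map_max K hK
      rw [← h2, Ideal.comap_map_quotientMk]
      exact sup_eq_right.2 hK
    rw [← h1, ← hmap, Ideal.comap_map_quotientMk]
  have hl : ∀ x ∈ l, x ∈ maximalIdeal S := by
    intro x hx
    rw [← hcomap]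
    exact Ideal.mem_sup_right (Ideal.subset_span hx)
  have hsm : Ideal.span {x | x ∈ l} • (⊤ : Submodule S (S ⧸ K)) = maximalIdeal S • ⊤ := by
    rw [← hcomap, Submodule.sup_smul]
    have h0 : K • (⊤ : Submodule S (S ⧸ K)) = ⊥ := by
      rw [eq_bot_iff, Submodule.smul_le]
      intro r hr n _
      obtain ⟨n, rfl⟩ := Ideal.Quotient.mk_surjective n
      have h3 : r • (Ideal.Quotient.mk K n) = Ideal.Quotient.mk K (r * n) := rfl
      rw [h3, Submodule.mem_bot, Ideal.Quotient.eq_zero_iff_mem]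
      exact Ideal.mul_mem_right _ _ hr
    rw [h0, bot_sup_eq]
  refine lim_le_list (T := S ⧸ K) (s := 0) l hl ?_ ?_
  · rw [hlen, zero_add]
    exact hc
  · rw [hsm]
    refine tendsto_const_nhds.congr' ?_
    filter_upwards [eventually_gt_atTop 0] with N hN
    have h1 : tcl S ((S ⧸ K) ⧸ (maximalIdeal S • (⊤ : Submodule S (S ⧸ K)))) N = 1 := by
      rw [← wl_toNat]
      unfold wl
      have h2 : (maximalIdeal S • (⊤ : Submodule S (S ⧸ K))) ⊔ maximalIdeal S ^ N • ⊤ =
          maximalIdeal S • ⊤ :=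
        sup_eq_left.2 (Submodule.smul_mono (Ideal.pow_le_self hN.ne') le_rfl)
      rw [h2, length_quot_quot, sup_eq_right.2 hK]
      have h3 : Module.length S (S ⧸ maximalIdeal S) = 1 := by
        rw [Module.length_eq_one_iff]
        exact isSimpleModule_iff_isCoatom.2 (maximalIdeal.isMaximal S).out
      rw [h3]
      rfl
    unfold gs
    rw [h1]
    simp

end regular

end Vale.Agent.P202.H664
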