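import Vale.Agent.P202.H834.Mod
import Vale.Agent.P202.H664.Len2
import Vale.Agent.P202.H664.Num

/-!
# The upper bound `e(S ⊗ M) ≤ e(M) e(S/𝔪S)`
-/

namespace Vale.Agent.P202.H664

open Filter Topology IsLocalRing TensorProduct Vale.Agent.P202 Vale.Agent.P202.H834

universe u v w

theorem tcl_zero (B : Type*) [CommRing B] [IsLocalRing B] (M : Type*) [AddCommGroup M]
    [Module B M] : tcl B M 0 = 0 := by
  have : Subsingleton (M ⧸ (maximalIdeal B ^ 0 • (⊤ : Submodule B M))) := by
    rw [pow_zero, Ideal.one_eq_top, Submodule.top_smul]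
    exact Submodule.Quotient.subsingleton_iff.2 rfl
  unfold tcl
  rw [Module.length_eq_zero]
  rfl

section upper

variable {R : Type u} {S : Type v} [CommRing R] [IsLocalRing R] [IsNoetherianRing R]
  [CommRing S] [IsLocalRing S] [IsNoetherianRing S] [Algebra R S]
  [IsLocalHom (algebraMap R S)]

theorem mu_add (M : Type w) [AddCommGroup M] [Module R M] [Module.Finite R M] (i : ℕ) :
    mu R M i = ((tcl R M (i + 1) - tcl R M i : ℕ) : ℕ∞) := by
  have h1 := length_succ (R := R) M i
  rw [← tcl_coe, ← tcl_coe] at h1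
  change (tcl R M (i + 1) : ℕ∞) = tcl R M i + mu R M i at h1
  have h2 : mu R M i ≠ ⊤ := by
    intro h
    rw [h, add_top] at h1
    exact ENat.natCast_ne_top _ h1
  obtain ⟨k, hk⟩ := ENat.ne_top_iff_exists.mp h2
  rw [← hk] at h1 ⊢
  have h3 : tcl R M (i + 1) = tcl R M i + k := by exact_mod_cast h1
  rw [h3, Nat.add_sub_cancel_left]

/-- the growth function of a base change. -/
theorem tcl_le_sum (M : Type w) [AddCommGroup M] [Module R M] [Module.Finite R M] (N : ℕ) :
    tcl S (S ⊗[R] M) N ≤ ∑ i ∈ Finset.range N, (tcl R M (i + 1) - tcl R M i) *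
      tcl S (S ⧸ (maximalIdeal R).map (algebraMap R S)) (N - i) := by
  have h1 := length_le_sum (R := R) (S := S) M N
  rw [← tcl_coe] at h1
  have h2 : ∑ j ∈ Finset.range N, mu R M j *
      Module.length S ((S ⧸ (maximalIdeal R).map (algebraMap R S)) ⧸
      (maximalIdeal S ^ (N - j) • (⊤ : Submodule S (S ⧸ (maximalIdeal R).map
        (algebraMap R S))))) = ((∑ i ∈ Finset.range N, (tcl R M (i + 1) - tcl R M i) *
      tcl S (S ⧸ (maximalIdeal R).map (algebraMap R S)) (N - i) : ℕ) : ℕ∞) := by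
    push_cast
    refine Finset.sum_congr rfl fun j _ => ?_
    rw [← tcl_coe, mu_add, ENat.natCast_sub]
  rw [h2] at h1
  exact_mod_cast h1

/-- The upper bound. -/
theorem upper_bound (M : Type w) [AddCommGroup M] [Module R M] [Module.Finite R M] {m f : ℕ}
    {a b c : ℝ} (ha : Tendsto (gs R M m) atTop (𝓝 a))
    (hb : Tendsto (gs S (S ⊗[R] M) (m + f)) atTop (𝓝 b))
    (hc : Tendsto (gs S (S ⧸ (maximalIdeal R).map (algebraMap R S)) f) atTop (𝓝 c)) :
    b ≤ a * c := by
  refine le_mul_of_conv (h := fun N => (tcl R M N : ℝ))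
    (g := fun N => (tcl S (S ⧸ (maximalIdeal R).map (algebraMap R S)) N : ℝ))
    (t := fun N => (tcl S (S ⊗[R] M) N : ℝ)) ?_ ?_ ?_ ?_ ?_ ha hc hb
  · intro i j hij
    exact Nat.cast_le.2 (tcl_mono R M hij)
  · intro i j hij
    exact Nat.cast_le.2 (tcl_mono S (S ⧸ (maximalIdeal R).map (algebraMap R S)) hij)
  · simp only [tcl_zero, Nat.cast_zero]
  · simp only [tcl_zero, Nat.cast_zero]
  · intro N
    have h1 := tcl_le_sum (R := R) (S := S) M N
    have h2 : ((tcl S (S ⊗[R] M) N : ℕ) : ℝ) ≤ ((∑ i ∈ Finset.range N,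
      (tcl R M (i + 1) - tcl R M i) *
        tcl S (S ⧸ (maximalIdeal R).map (algebraMap R S)) (N - i) : ℕ) : ℝ) := by
      exact_mod_cast h1
    refine h2.trans (le_of_eq ?_)
    push_cast
    refine Finset.sum_congr rfl fun j _ => ?_
    rw [Nat.cast_sub (tcl_mono R M (Nat.le_succ j))]

end upper

end Vale.Agent.P202.H664
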